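import Vale.Agent.P011.H704.HQ.ModAe
import Vale.Agent.P011.H961.R5TwoLoc

/-!
# Function fields: places of split type at which a separable polynomial has a root

In characteristic two: places of split type at which `x ^ 2 + x = ν` has a solution.
-/

open Module Polynomial

set_option linter.unusedSectionVars false

namespace Vale.Agent.P011.H500.C2

open Vale.Agent.P011.H738 Vale.Agent.P011.H271 Vale.Agent.P011.H961 Vale.Agent.P011.H519
  Vale.Agent.P011.H305 Vale.Agent.P011.H704.HQ
open Vale.Agent.P011.H961.C2 (Spl2)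

/-- Infinitely many places at which `K` embeds and a separable polynomial over `K` has a root. -/
theorem exists_root_place {k K : Type} [Field k] [GFF k] [Field K] [Algebra k K]
    [FiniteDimensional k K] [Algebra.IsSeparable k K] {P : K[X]} (hP : P.Separable)
    (hd : P.degree ≠ 0) (T : Finset (Place k)) :
    ∃ q : Place k, q ∉ T ∧ ∃ (φ : K →ₐ[k] q.comp) (x : q.comp),
      P.eval₂ (φ : K →+* q.comp) x = 0 := by
  have hgal : IsGalois K P.SplittingField := IsGalois.of_separable_splitting_field hP
  have hfd : FiniteDimensional k P.SplittingField :=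
    FiniteDimensional.trans k K P.SplittingField
  have hsep : Algebra.IsSeparable k P.SplittingField :=
    Algebra.IsSeparable.trans k K P.SplittingField
  obtain ⟨q, hq, ⟨τ⟩⟩ := exists_hom_place (k := k) (E := P.SplittingField) T
  obtain ⟨β, hβ⟩ := (SplittingField.splits P).exists_eval_eq_zero (by
    rw [degree_map]
    exact hd)
  refine ⟨q, hq, τ.comp (IsScalarTower.toAlgHom k K P.SplittingField), τ β, ?_⟩
  rw [eval_map] at hβ
  have h1 := congrArg τ hβ
  rw [map_zero] at h1
  rw [← h1, ← AlgHom.coe_toRingHom τ, hom_eval₂]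
  rfl

/-- The same with elements of `k`. -/
theorem near_of_spl2 {k : Type} [Field k] (h2 : (2 : k) = 0) {q : Place k} {ν : k}
    (h : Spl2 q ν) : ∃ x : k, q.abv (x * x + x + ν) < 1 := by
  obtain ⟨y, hy⟩ := h
  obtain ⟨a, ha⟩ := dense_alg q y one_pos
  refine ⟨a, ?_⟩
  have h2q : (2 : q.comp) = 0 := by
    rw [← map_ofNat (algebraMap k q.comp) 2, h2, map_zero]
  obtain ⟨e, he⟩ : ∃ e : q.comp, e = y - algebraMap k q.comp a := ⟨_, rfl⟩
  rw [← he] at ha
  have h3 : algebraMap k q.comp (a * a + a + ν) = e * (e + 1) := by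
    rw [map_add, map_add, map_mul, ← hy, he]
    linear_combination (algebraMap k q.comp a + y * algebraMap k q.comp a) * h2q
  rw [← norm_alg, h3, norm_mul]
  have h4 : ‖e + 1‖ ≤ 1 := by
    refine (IsUltrametricDist.norm_add_le_max _ _).trans ?_
    rw [norm_one]
    exact max_le ha.le le_rfl
  calc ‖e‖ * ‖e + 1‖ ≤ ‖e‖ * 1 := mul_le_mul_of_nonneg_left h4 (norm_nonneg _)
    _ < 1 := by rw [mul_one]; exact ha

section ring

variable {k K A : Type} [Field k] [Field K] [StarRing K] [Ring A] [StarRing A]
  [Algebra k K] [Algebra k A] [Algebra K A] [IsScalarTower k K A] [StarModule K A] {n : ℕ}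

/-- **Places of split type at which `ν` and `κ * star κ` are of the form `x ^ 2 + x`**,
characteristic two. -/
theorem exists_q2 [GFF k] (hA : Anis k K A n) (hn : n ≠ 0) (h2 : (2 : k) = 0) (ν : k)
    (S : Finset (Place k)) :
    ∃ q : Place k, q ∉ S ∧ ∃ (φ : K →ₐ[k] q.comp) (g : A →+* Matrix (Fin n) (Fin n) q.comp),
      (∀ c : K, g (algebraMap K A c) = algebraMap q.comp _ (φ c)) ∧
      Spl2 q ν ∧
      ∀ (κ : K) (c₀ : k), κ + star κ = 1 → κ * star κ = algebraMap k K c₀ → Spl2 q c₀ := by
  classical
  have hcen := hA.central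
  have hsim := hA.simple
  obtain ⟨hfd, hsep, -⟩ := H519.quad hA.fixed hA.star_ne
  obtain ⟨T, hT⟩ := exists_split_ae (k := k) hA.fixed hn hA.finrank_eq
  have h2K : (2 : K) = 0 := by
    rw [← map_ofNat (algebraMap k K) 2, h2, map_zero]
  let P : K[X] := X ^ 2 + X - C (algebraMap k K ν)
  have hdP : derivative P = 1 := by
    simp only [P, derivative_sub, derivative_add, derivative_X_pow, derivative_X, derivative_C]
    have : ((2 : ℕ) : K) = 0 := by exact_mod_cast h2K
    rw [this]
    simp
  have hP : P.Separable := by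
    rw [separable_def, hdP]
    exact isCoprime_one_right
  have hdeg : P.degree ≠ 0 := by
    have h1 : P.degree = 2 := by
      simp only [P]
      compute_degree!
    rw [h1]
    norm_num
  obtain ⟨q, hq, φ, x, hx⟩ := exists_root_place (k := k) (K := K) hP hdeg (S ∪ T)
  have h2q : (2 : q.comp) = 0 := by
    rw [← map_ofNat (algebraMap k q.comp) 2, h2, map_zero]
  obtain ⟨g, hg⟩ := @hT q (fun h => hq (Finset.mem_union_right _ h)) q.comp (nnfPlace q) _ _
    (φ : K →+* q.comp) fun c => by
      rw [AlgHom.coe_toRingHom, AlgHom.commutes]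
      exact norm_alg q c
  refine ⟨q, fun h => hq (Finset.mem_union_left _ h), φ, g, hg, ⟨x, ?_⟩, ?_⟩
  · simp only [P, eval₂_sub, eval₂_add, eval₂_pow, eval₂_X, eval₂_C] at hx
    have h3 : (φ : K →+* q.comp) (algebraMap k K ν) = algebraMap k q.comp ν := φ.commutes ν
    rw [h3] at hx
    linear_combination hx
  · intro κ c₀ hκ hc
    refine ⟨φ κ, ?_⟩
    have h3 : κ ^ 2 + κ = algebraMap k K c₀ := by
      have h4 : star κ = 1 - κ := by linear_combination hκ
      rw [h4] at hc
      linear_combination hc + κ * κ * h2K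
    rw [← map_pow, ← map_add, h3, AlgHom.commutes]

end ring

end Vale.Agent.P011.H500.C2
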