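import Vale.Agent.P011.H974.SolvR8
import Vale.Agent.P011.H704.C2.Out
import Vale.Agent.P011.H707.C2.Defs
import Vale.Agent.P011.H500.C2.PlaceQ

/-!
# Function fields of characteristic two: the solvable step from the reduction

Letters of rings with an anisotropic involution.
-/

open Module
open scoped commutatorElement

set_option linter.unusedSectionVars false

namespace Vale.Agent.P011.H500.C2

open Vale.Agent.P011.H738 Vale.Agent.P011.H271 Vale.Agent.P011.H305 Vale.Agent.P011.H698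
open Vale.Agent.P011.H961.C2 (Spl2)
open Vale.Agent.P011.H706.C2 (HQ1F2)
open Vale.Agent.P011.H707.C2 (ImA Sp)

variable {k K A Ω : Type} [Field k] [Field K] [StarRing K] [Ring A] [StarRing A]
  [Algebra k K] [Algebra k A] [Algebra K A] [IsScalarTower k K A] [StarModule K A] {n N : ℕ}
  [Field Ω] [Algebra K Ω]

/-- **(R8), characteristic two.** The solvable step, from the reduction `hred` at the places `q` of
split type at which `ν` is of the form `x ^ 2 + x`. -/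
theorem solvAt_of_red2 (hk : IsGlobalFunctionField k) [GFF k] (hA : Anis k K A n) (hn : 3 ≤ n)
    (h2 : (2 : k) = 0) (f : A →ₐ[K] Matrix (Fin n) (Fin n) Ω) (B : Basis (Fin N) k A) (ν : k)
    (hred : ∀ Q H : Subgroup (SUA f), Q.Normal → H.Normal → Q ≤ H → Q.index ≠ 0 →
      NearA k K f B H → (Q.relIndex H).Prime → (∀ g : SUA f, ∀ x ∈ H, ⁅g, x⁆ ∈ Q) →
      (∃ (T : Finset (Place k)) (ε : ℝ), 0 < ε ∧ HQ1F2 k B T ε (ImA Q)) →
      ∀ S₀ : Finset (Place k), ∃ S : Finset (Place k), S₀ ⊆ S ∧ ∃ ε : ℝ, 0 < ε ∧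
        ∀ q ∉ S, Spl2 q ν → Sp ν q → ∀ x : A, x * star x = 1 → (f x).det = 1 →
          (∀ v ∈ S, Sm B v ε (x - 1)) → (∀ v ∉ S, v ≠ q → Bd B v 1 x) → x ∈ ImA Q) :
    SolvAtF k K f B := by
  refine H974.R8.solvAtF_core hk hA hn f B (fun q => Spl2 q ν) (fun S => ?_) ?_
  · obtain ⟨q, hq, φ, g, hg, hν, -⟩ := exists_q2 hA (by omega) h2 ν S
    exact ⟨q, hq, hν, φ, g, hg⟩
  · intro Q H hQ hH hQH hi hN hp hc S₀
    obtain ⟨T, -, ε₀, hε₀, hHQ⟩ := H704.C2.hq1F2 hA (by omega) h2 f B Q H hc hN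
    obtain ⟨S, h0, ε, hε, h⟩ := hred Q H hQ hH hQH hi hN hp hc ⟨T, ε₀, hε₀, hHQ⟩ S₀
    refine ⟨S, h0, ε, hε, fun q hq hν x hx hxi => ?_⟩
    obtain ⟨g, hg, hgx⟩ := h q hq hν (near_of_spl2 h2 hν) ((x : Aˣ) : A) x.2.1 x.2.2 hx hxi
    have : g = x := Subtype.ext (Units.ext hgx)
    rwa [← this]

end Vale.Agent.P011.H500.C2
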